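import Vale.Agent.P011N.G2a.Glob

/-!
Openness of the closure of a noncentral subgroup normalized by an open subgroup.
-/

open Topology Filter Module

namespace Vale.Agent.P011N.G2a

variable {V : Type} [AddCommGroup V] [Module ℚ V]

/-- Conjugation of an endomorphism. -/
def ad (g : V ≃ₗ[ℚ] V) : Module.End ℚ V →ₗ[ℚ] Module.End ℚ V :=
  LinearMap.mulLeftRight ℚ ((g : Module.End ℚ V), ((g⁻¹ : V ≃ₗ[ℚ] V) : Module.End ℚ V))

theorem ad_apply (g : V ≃ₗ[ℚ] V) (Y : Module.End ℚ V) :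
    ad g Y = (g : Module.End ℚ V) * Y * ((g⁻¹ : V ≃ₗ[ℚ] V) : Module.End ℚ V) := rfl

theorem co_mul (g h : V ≃ₗ[ℚ] V) :
    ((g * h : V ≃ₗ[ℚ] V) : Module.End ℚ V) = (g : Module.End ℚ V) * (h : Module.End ℚ V) := rfl

theorem co_one : ((1 : V ≃ₗ[ℚ] V) : Module.End ℚ V) = 1 := rfl

theorem co_inv (g : V ≃ₗ[ℚ] V) :
    (g : Module.End ℚ V) * ((g⁻¹ : V ≃ₗ[ℚ] V) : Module.End ℚ V) = 1 := by
  rw [← co_mul, mul_inv_cancel, co_one]

theorem co_inv' (g : V ≃ₗ[ℚ] V) :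
    ((g⁻¹ : V ≃ₗ[ℚ] V) : Module.End ℚ V) * (g : Module.End ℚ V) = 1 := by
  rw [← co_mul, inv_mul_cancel, co_one]

theorem ad_mul (g h : V ≃ₗ[ℚ] V) (Y : Module.End ℚ V) : ad (g * h) Y = ad g (ad h Y) := by
  simp only [ad_apply, mul_inv_rev, co_mul, mul_assoc]

theorem ad_one (Y : Module.End ℚ V) : ad 1 Y = Y := by
  simp only [ad_apply, inv_one, co_one, mul_one, one_mul]

theorem ad_co (g h : V ≃ₗ[ℚ] V) :
    ad g (h : Module.End ℚ V) = ((g * h * g⁻¹ : V ≃ₗ[ℚ] V) : Module.End ℚ V) := rfl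

theorem ad_eq_iff (g : V ≃ₗ[ℚ] V) (Y : Module.End ℚ V) :
    ad g Y = Y ↔ (g : Module.End ℚ V) * Y = Y * (g : Module.End ℚ V) := by
  refine ⟨fun h => ?_, fun h => by rw [ad_apply, h, mul_assoc, co_inv, mul_one]⟩
  conv_rhs => rw [← h, ad_apply, mul_assoc, co_inv', mul_one]

theorem tan_curve {T : Forms V} {σ : Type} [Fintype σ] (i : σ) {X : Module.End ℚ V}
    (hX : X ∈ T.tan) : ∃ u : (σ → ℚ) → V ≃ₗ[ℚ] V, (∀ s, u s ∈ T.grp) ∧ u 0 = 1 ∧
      Sm (fun s => (u s : Module.End ℚ V)) (fun s => s i • X) := by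
  classical
  obtain ⟨g, B, hg, hB, h⟩ := hX
  choose c hc1 hc2 using h
  refine ⟨fun s => if h : B.eval (s i) ≠ 0 then c (s i) h else 1, fun s => ?_, ?_, ?_⟩
  · by_cases h : B.eval (s i) ≠ 0
    · simp only [dif_pos h]
      exact hc1 _ h
    · simp only [dif_neg h]
      exact one_mem _
  · simp only [Pi.zero_apply, dif_pos hB]
    apply LinearEquiv.toLinearMap_injective
    rw [hc2, co_one]
    simp
  · refine Sm.curve i (f := fun t => ((if h : B.eval t ≠ 0 then c t h else 1 : V ≃ₗ[ℚ] V) :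
      Module.End ℚ V)) hg hB fun t ht => ?_
    simp only [dif_pos ht]
    exact hc2 t ht

theorem tan_ad {T : Forms V} {n : V ≃ₗ[ℚ] V} (hn : n ∈ T.grp) {X : Module.End ℚ V}
    (hX : X ∈ T.tan) : ad n X ∈ T.tan := by
  obtain ⟨g, B, ⟨b, k, c, hb, hg⟩, hB, h⟩ := hX
  refine ⟨fun t => ad n (g t), B, ⟨b, k, fun j => ad n (c j), hb, fun t ht => ?_⟩, hB,
    fun t ht => ?_⟩
  · rw [← map_smul, hg t ht]
    simp only [map_sum, map_smul]
  · obtain ⟨u, hu, hu'⟩ := h t ht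
    refine ⟨n * u * n⁻¹, mul_mem (mul_mem hn hu) (inv_mem hn), ?_⟩
    rw [← ad_co, hu', map_add, map_add, map_smul, map_smul, ad_apply n 1, mul_one, co_inv]

theorem sm_inv {σ : Type} [Fintype σ] {u : (σ → ℚ) → V ≃ₗ[ℚ] V} (h0 : u 0 = 1)
    {D : (σ → ℚ) → Module.End ℚ V} (h : Sm (fun s => (u s : Module.End ℚ V)) D) :
    Sm (fun s => (((u s)⁻¹ : V ≃ₗ[ℚ] V) : Module.End ℚ V)) (fun s => - D s) :=
  h.inv (by simp only [h0, co_one]) (fun s => co_inv _) fun s => co_inv' _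

theorem sm_ad {σ : Type} [Fintype σ] {u : (σ → ℚ) → V ≃ₗ[ℚ] V} (h0 : u 0 = 1)
    {D : (σ → ℚ) → Module.End ℚ V} (h : Sm (fun s => (u s : Module.End ℚ V)) D)
    (Y : Module.End ℚ V) : Sm (fun s => ad (u s) Y) (fun s => D s * Y - Y * D s) :=
  ((h.mul (Sm.const Y)).mul (sm_inv h0 h)).congr fun s => by
    simp only [h0, inv_one, co_one, one_mul, mul_one, mul_zero, zero_add, mul_neg]
    abel

theorem sm_comm {σ : Type} [Fintype σ] {u : (σ → ℚ) → V ≃ₗ[ℚ] V} (h0 : u 0 = 1)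
    {D : (σ → ℚ) → Module.End ℚ V} (h : Sm (fun s => (u s : Module.End ℚ V)) D)
    (n : V ≃ₗ[ℚ] V) : Sm (fun s => ((u s * n * (u s)⁻¹ * n⁻¹ : V ≃ₗ[ℚ] V) : Module.End ℚ V))
      (fun s => D s - ad n (D s)) :=
  ((sm_ad h0 h (n : Module.End ℚ V)).mul (Sm.const ((n⁻¹ : V ≃ₗ[ℚ] V) : Module.End ℚ V))).congr
    fun s => by
      simp only [mul_zero, zero_add, sub_mul, mul_assoc, co_inv, mul_one, ad_apply]

variable {d : ℕ} (b : Basis (Fin d) ℚ V) (P : Finset Nat.Primes) {T : Forms V}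

include b in
theorem tan_lie {X : Module.End ℚ V} (hX : X ∈ T.tan) : X ∈ T.lie := by
  obtain ⟨u, hu, h0, h⟩ := tan_curve () hX
  simpa using h.mem_lie b hu h0 fun _ => 1

theorem ev_mem {Λ₀ : Subgroup (V ≃ₗ[ℚ] V)} (hΛ : OpenIn b P Λ₀ T.grp) {σ : Type} [Fintype σ]
    {u : (σ → ℚ) → V ≃ₗ[ℚ] V} (hu : ∀ s, u s ∈ T.grp) (h0 : u 0 = 1)
    {D : (σ → ℚ) → Module.End ℚ V} (h : Sm (fun s => (u s : Module.End ℚ V)) D) :
    ∀ᶠ s in comap (al (RP P)) (𝓝 (0 : σ → RP P)), u s ∈ Λ₀ := by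
  obtain ⟨U, hU, hΛ⟩ := hΛ
  filter_upwards [(h.tendsto_one b P h0).eventually hU] with s hs
  exact hΛ _ (hu s) hs

theorem ad_stable {Λ₀ : Subgroup (V ≃ₗ[ℚ] V)} (hΛ : OpenIn b P Λ₀ T.grp)
    {W : Submodule ℚ (Module.End ℚ V)} {Y : Module.End ℚ V} (hW : ∀ g ∈ Λ₀, ad g Y - Y ∈ W)
    {X : Module.End ℚ V} (hX : X ∈ T.tan) : X * Y - Y * X ∈ W := by
  obtain ⟨u, hu, h0, h⟩ := tan_curve () hX
  have h1 := (sm_ad h0 h Y).deriv_mem b P W (by
    filter_upwards [ev_mem b P hΛ hu h0 h] with s hs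
    rw [h0, ad_one]
    exact hW _ hs) fun _ => 1
  simpa using h1

theorem span_eq (hT : T.Good) {Λ₀ : Subgroup (V ≃ₗ[ℚ] V)} (hΛ : OpenIn b P Λ₀ T.grp)
    {S : Set (Module.End ℚ V)} (h1 : S ⊆ T.lie) (h2 : ∃ X ∈ S, X ≠ 0)
    (h3 : ∀ g ∈ Λ₀, ∀ X ∈ S, ad g X ∈ S) : Submodule.span ℚ S = T.lie := by
  refine hT.irr _ (Submodule.span_le.2 h1) (fun h => ?_) fun X hX Y hY => ?_
  · obtain ⟨X, hX, hX0⟩ := h2
    exact hX0 (Submodule.span_eq_bot.1 h X hX)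
  · refine ad_stable b P hΛ (fun g hg => sub_mem ?_ hY) hX
    exact (Submodule.span_le.2 fun Z hZ => Submodule.subset_span (h3 g hg Z hZ) :
      Submodule.span ℚ S ≤ (Submodule.span ℚ S).comap (ad g)) hY

include b in
theorem span_tan (hT : T.Good) : Submodule.span ℚ T.tan = T.lie :=
  span_eq b ∅ hT (Λ₀ := T.grp) ⟨Set.univ, univ_mem, fun _ h _ => h⟩ (fun _ => tan_lie b) hT.tan_ne
    fun _ hg _ => tan_ad hg

include b in
theorem central_of (hT : T.Good) {n : V ≃ₗ[ℚ] V} (hn : n ∈ T.grp) (h : ∀ X ∈ T.tan, ad n X = X) :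
    ∀ g ∈ T.grp, g * n = n * g := by
  have h1 : T.lie ≤ LinearMap.eqLocus (ad n) LinearMap.id := by
    rw [← span_tan b hT]
    exact Submodule.span_le.2 h
  have h2 := hT.cent ⟨n, hn⟩ fun X hX => (ad_eq_iff n X).1 (h1 hX)
  exact fun g hg => congrArg Subtype.val (Subgroup.mem_center_iff.1 h2 ⟨g, hg⟩)

include b in
theorem fix_of_central (hT : T.Good) {n : V ≃ₗ[ℚ] V} (h : ∀ g ∈ T.grp, g * n = n * g) :
    ∀ X ∈ T.lie, ad n X = X := by
  have h1 : T.lie ≤ LinearMap.eqLocus (ad n) LinearMap.id := by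
    rw [← span_tan b hT]
    refine Submodule.span_le.2 fun X hX => ?_
    obtain ⟨u, hu, h0, hS⟩ := tan_curve () hX
    have h2 := hS.deriv_mem b ∅ (LinearMap.eqLocus (ad n) LinearMap.id)
      (Eventually.of_forall fun s => sub_mem (by
        change ad n _ = _
        rw [ad_co, ← h _ (hu s), mul_inv_cancel_right]
        rfl) (by
        change ad n _ = _
        rw [ad_co, h0, mul_one, mul_inv_cancel]
        rfl)) fun _ => 1
    simpa using h2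
  exact fun X hX => h1 hX

/-- The differentials of the maps with values in `N` for small parameters. -/
def Adm (T : Forms V) (N : Subgroup (V ≃ₗ[ℚ] V)) (σ : Type) [Fintype σ] :
    AddSubmonoid ((σ → ℚ) →ₗ[ℚ] Module.End ℚ V) where
  carrier := {D | ∃ u : (σ → ℚ) → V ≃ₗ[ℚ] V, (∀ s, u s ∈ T.grp) ∧ u 0 = 1 ∧
    Sm (fun s => (u s : Module.End ℚ V)) D ∧
    ∀ᶠ s in comap (al (RP P)) (𝓝 (0 : σ → RP P)), u s ∈ N}
  zero_mem' := ⟨fun _ => 1, fun _ => one_mem _, rfl, Sm.const _,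
    Eventually.of_forall fun _ => one_mem _⟩
  add_mem' := by
    rintro D D' ⟨u, h1, h2, h3, h4⟩ ⟨u', h1', h2', h3', h4'⟩
    refine ⟨fun s => u s * u' s, fun s => mul_mem (h1 s) (h1' s), by simp only [h2, h2', mul_one],
      (h3.mul h3').congr fun s => ?_, ?_⟩
    · simp only [h2, h2', co_one, one_mul, mul_one, LinearMap.add_apply, add_comm]
    · filter_upwards [h4, h4'] with s hs hs'
      exact mul_mem hs hs'

theorem opn_one (hT : T.Good) {Λ₀ : Subgroup (V ≃ₗ[ℚ] V)} (hle : Λ₀ ≤ T.grp)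
    (hΛ : OpenIn b P Λ₀ T.grp) {N : Subgroup (V ≃ₗ[ℚ] V)} (hN : N ≤ T.grp)
    (hn : ∀ g ∈ Λ₀, ∀ n ∈ N, g * n * g⁻¹ ∈ N) (hc : ∃ n ∈ N, ∃ g ∈ T.grp, g * n ≠ n * g) :
    ∀ᶠ h in 𝓝 (1 : Amb d P), h ∈ Clo b P T.grp → h ∈ Clo b P N := by
  have hfin : Module.Finite ℚ V := Module.Finite.of_basis b
  have h1 : Submodule.span ℚ {Z | ∃ n ∈ N, ∃ X ∈ T.tan, Z = X - ad n X} = T.lie := by
    refine span_eq b P hT hΛ ?_ ?_ ?_
    · rintro _ ⟨n, hn, X, hX, rfl⟩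
      exact sub_mem (tan_lie b hX) (tan_lie b (tan_ad (hN hn) hX))
    · by_contra h
      obtain ⟨n, hn, g, hg, hne⟩ := hc
      refine hne (central_of b hT (hN hn) (fun X hX => ?_) g hg)
      by_contra h2
      exact h ⟨_, ⟨n, hn, X, hX, rfl⟩, fun h3 => h2 (sub_eq_zero.1 h3).symm⟩
    · rintro g hg _ ⟨n, hnN, X, hX, rfl⟩
      refine ⟨g * n * g⁻¹, hn g hg n hnN, ad g X, tan_ad (hle hg) hX, ?_⟩
      rw [map_sub, ← ad_mul, ← ad_mul, inv_mul_cancel_right]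
  obtain ⟨S, hS1, hS2⟩ := (Submodule.fg_span_iff_fg_span_finset_subset (R := ℚ)
    {Z | ∃ n ∈ N, ∃ X ∈ T.tan, Z = X - ad n X}).1 (IsNoetherian.noetherian _)
  have h2 : ∑ i : S, (LinearMap.proj i : (S → ℚ) →ₗ[ℚ] ℚ).smulRight i.1 ∈ Adm P T N S := by
    refine AddSubmonoid.sum_mem _ fun i _ => ?_
    obtain ⟨n, hnN, X, hX, hi⟩ := hS1 i.2
    obtain ⟨u, hu, h0, h⟩ := tan_curve i hX
    refine ⟨fun s => u s * n * (u s)⁻¹ * n⁻¹,
      fun s => mul_mem (mul_mem (mul_mem (hu s) (hN hnN)) (inv_mem (hu s))) (inv_mem (hN hnN)),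
      by simp only [h0, one_mul, inv_one, mul_one, mul_inv_cancel],
      (sm_comm h0 h n).congr fun s => ?_, ?_⟩
    · simp only [hi, map_smul, LinearMap.smulRight_apply, LinearMap.proj_apply, smul_sub]
    · filter_upwards [ev_mem b P hΛ hu h0 h] with s hs
      exact mul_mem (hn _ hs n hnN) (inv_mem hnN)
  obtain ⟨u, hu, h0, h, hev⟩ := h2
  refine glob b P hu h0 h (fun Y hY => ?_) hev
  rw [← h1, hS2] at hY
  obtain ⟨s, hs⟩ := (Submodule.mem_span_finset' ).1 hY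
  exact ⟨s, by simpa using hs⟩

theorem opn_two (hT : T.Good) {Λ₀ : Subgroup (V ≃ₗ[ℚ] V)} (hle : Λ₀ ≤ T.grp)
    (hΛ : OpenIn b P Λ₀ T.grp) : ∃ n ∈ ⁅Λ₀, Λ₀⁆, ∃ g ∈ T.grp, g * n ≠ n * g := by
  by_contra hc
  push Not at hc
  let C : Submodule ℚ (Module.End ℚ V) :=
    ⨅ Y : T.lie, LinearMap.eqLocus (LinearMap.mulRight ℚ Y.1) (LinearMap.mulLeft ℚ Y.1)
  have hC : ∀ Z, Z ∈ C ↔ ∀ Y ∈ T.lie, Z * Y = Y * Z := fun Z => by
    simp [C, Submodule.mem_iInf]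
  have h1 : T.lie ⊓ C = ⊥ := by
    by_contra h
    have h2 := hT.irr _ inf_le_left h fun X hX Y hY => by
      rw [(hC Y).1 hY.2 X (tan_lie b hX), sub_self]
      exact zero_mem _
    obtain ⟨X, hX, Y, hY, hne⟩ := hT.nonab
    exact hne ((hC X).1 (h2.ge hX).2 Y hY)
  have h2 : ∀ g ∈ Λ₀, ∀ X ∈ T.tan, ad g X = X := fun g hg X hX => by
    obtain ⟨u, hu, h0, h⟩ := tan_curve () hX
    have h3 := (sm_comm h0 h g).deriv_mem b P C (by
      filter_upwards [ev_mem b P hΛ hu h0 h] with s hs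
      refine sub_mem ((hC _).2 fun Y hY => (ad_eq_iff _ Y).1 ?_) ((hC _).2 fun Y _ => ?_)
      · exact fix_of_central b hT (hc _ (Subgroup.commutator_mem_commutator hs hg)) Y hY
      · simp only [h0, one_mul, inv_one, mul_one, mul_inv_cancel, co_one]) fun _ => 1
    have h4 : X - ad g X ∈ T.lie ⊓ C :=
      ⟨sub_mem (tan_lie b hX) (tan_lie b (tan_ad (hle hg) hX)), by simpa using h3⟩
    rw [h1, Submodule.mem_bot, sub_eq_zero] at h4
    exact h4.symm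
  have h3 : ∀ X ∈ T.tan, X ∈ C := fun X hX => (hC X).2 fun Y hY => by
    have h4 : T.lie ≤ LinearMap.eqLocus (LinearMap.mulLeft ℚ X) (LinearMap.mulRight ℚ X) := by
      rw [← span_tan b hT]
      refine Submodule.span_le.2 fun Z hZ => ?_
      have h5 := ad_stable b P hΛ (W := ⊥) (Y := Z)
        (fun g hg => by rw [h2 g hg Z hZ, sub_self]; exact zero_mem _) hX
      exact sub_eq_zero.1 h5
    exact h4 hY
  obtain ⟨X, hX, hX0⟩ := hT.tan_ne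
  have h4 : X ∈ T.lie ⊓ C := ⟨tan_lie b hX, h3 X hX⟩
  rw [h1] at h4
  exact hX0 h4

theorem opn : OpnStmt := by
  intro V _ _ d b P T hT Λ₀ hle hΛ
  refine ⟨fun N hN hn hc => ?_, opn_two b P hT hle hΛ⟩
  exact ⟨_, opn_one b P hT hle hΛ hN hn hc, fun h h1 h2 => h2 h1⟩

end Vale.Agent.P011N.G2a
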