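import Mathlib

/-!
A map into the zero set of a system of equations whose differential is onto the kernel of the
linearised system covers a neighbourhood in the zero set.
-/

open Topology Filter

namespace Vale.Agent.P011N.G2a

section

variable {K E F G : Type} [NontriviallyNormedField K] [NormedAddCommGroup E] [NormedSpace K E]
  [NormedAddCommGroup F] [NormedSpace K F] [NormedAddCommGroup G] [NormedSpace K G]

theorem ev_cont {Φ : F → E} {D : F →L[K] E} {a : F} (hΦ : HasStrictFDerivAt Φ D a) :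
    ∀ᶠ t in 𝓝 a, ContinuousAt Φ t := by
  obtain ⟨C, s, hs, hl⟩ := hΦ.exists_lipschitzOnWith
  filter_upwards [eventually_mem_nhds_iff.2 hs] with t ht
  exact hl.continuousOn.continuousAt ht

theorem comp_zero {Φ : F → E} {D : F →L[K] E} {q : E → G} {Q : E →L[K] G}
    (hΦ : HasStrictFDerivAt Φ D 0) (hq : HasStrictFDerivAt q Q (Φ 0))
    (hc : ∀ᶠ t in 𝓝 (0 : F), q (Φ t) = q (Φ 0)) (s : F) : Q (D s) = 0 := by
  have h1 : HasFDerivAt (fun t => q (Φ t)) (Q.comp D) 0 :=
    hq.hasFDerivAt.comp (0 : F) hΦ.hasFDerivAt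
  have h2 : HasFDerivAt (fun t => q (Φ t)) (0 : F →L[K] G) 0 :=
    (hasFDerivAt_const (q (Φ 0)) (0 : F)).congr_of_eventuallyEq hc
  have h3 := h1.unique h2
  exact congrArg (fun L : F →L[K] G => L s) h3

theorem cover [CompleteSpace E] {Φ : F → E} {D : F →L[K] E} {q : E → G} {Q : E →L[K] G}
    (S : E →L[K] F) (R : G →L[K] E) (hΦ : HasStrictFDerivAt Φ D 0)
    (hq : HasStrictFDerivAt q Q (Φ 0)) (hc : ∀ᶠ t in 𝓝 (0 : F), q (Φ t) = q (Φ 0))
    (hid : ∀ x, D (S x) + R (Q x) = x) {W : Set F} (hW : W ∈ 𝓝 (0 : F)) :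
    ∀ᶠ h in 𝓝 (Φ 0), q h = q (Φ 0) → ∃ t ∈ W, Φ t = h := by
  have hQD := comp_zero hΦ hq hc
  have hS0 : S 0 = 0 := map_zero S
  have hΦ' : HasStrictFDerivAt Φ D (S 0) := by rwa [hS0]
  have h1 : HasStrictFDerivAt (fun x => Φ (S x)) (D.comp S) 0 :=
    hΦ'.comp (0 : E) S.hasStrictFDerivAt
  have h2 : HasStrictFDerivAt (fun x => Φ (S x) + R (Q x)) (D.comp S + R.comp Q) 0 :=
    h1.add (R.comp Q).hasStrictFDerivAt
  have h3 : D.comp S + R.comp Q = (ContinuousLinearEquiv.refl K E : E →L[K] E) := by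
    ext x
    simpa using hid x
  rw [h3] at h2
  have h4 := h2.map_nhds_eq_of_equiv
  simp only [map_zero, add_zero] at h4
  rw [← h4, eventually_map]
  set c : ℝ := 1 / (2 * (‖R‖ + 1)) with hcdef
  have hcpos : 0 < c := by positivity
  have h5 := hq.isLittleO.def hcpos
  have hT1 : Tendsto (fun x => Φ (S x)) (𝓝 0) (𝓝 (Φ 0)) := by
    simpa [hS0] using h1.continuousAt.tendsto
  have hT2 : Tendsto (fun x => Φ (S x) + R (Q x)) (𝓝 0) (𝓝 (Φ 0)) := by
    simpa [hS0] using h2.continuousAt.tendsto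
  have hT3 : Tendsto S (𝓝 0) (𝓝 0) := by
    simpa [hS0] using (S.continuous.continuousAt (x := 0)).tendsto
  have h6 := (hT2.prodMk_nhds hT1).eventually h5
  filter_upwards [h6, hT3.eventually hc, hT3.eventually hW] with x hx1 hx2 hx3 hx4
  refine ⟨S x, hx3, ?_⟩
  have hz : R (Q (R (Q x))) = R (Q x) := by
    have h7 : R (Q x) = x - D (S x) := eq_sub_of_add_eq' (hid x)
    conv_lhs => rw [h7]
    rw [map_sub, hQD, sub_zero]
  simp only [hx4, hx2, add_sub_cancel_left, sub_self, zero_sub, norm_neg] at hx1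
  have h8 : ‖R (Q x)‖ ≤ ‖R‖ * (c * ‖R (Q x)‖) := by
    conv_lhs => rw [← hz]
    exact (R.le_opNorm _).trans (mul_le_mul_of_nonneg_left hx1 (norm_nonneg _))
  have h9 : ‖R‖ * c ≤ 1 / 2 := by
    rw [hcdef, mul_one_div, div_le_div_iff₀ (by positivity) (by norm_num)]
    linarith
  have h10 : ‖R (Q x)‖ = 0 := by
    have := norm_nonneg (R (Q x))
    nlinarith
  rw [norm_eq_zero.1 h10, add_zero]

end

end Vale.Agent.P011N.G2a
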