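import Vale.Agent.P011N.G2a.Sm

/-!
Weak approximation for the rational numbers.
-/

open Topology Filter

namespace Vale.Agent.P011N.G2a

/-- The absolute values of the places. -/
noncomputable def av (P : Finset Nat.Primes) : Option P → AbsoluteValue ℚ ℝ
  | none => Rat.AbsoluteValue.real
  | some p => Rat.AbsoluteValue.padic p.1.1

theorem av_lt (p : Nat.Primes) : Rat.AbsoluteValue.padic p.1 (p.1 : ℚ) < 1 := by
  rw [Rat.AbsoluteValue.padic_eq_padicNorm]
  exact_mod_cast padicNorm.padicNorm_p_lt_one_of_prime (p := p.1)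

theorem av_nontrivial (P : Finset Nat.Primes) (v : Option P) : (av P v).IsNontrivial := by
  rcases v with _ | p
  · exact ⟨2, by norm_num, by simp [av]⟩
  · exact ⟨(p.1.1 : ℚ), by exact_mod_cast p.1.2.ne_zero, (av_lt p.1).ne⟩

theorem av_pair (P : Finset Nat.Primes) :
    Pairwise fun v w : Option P => ¬ (av P v).IsEquiv (av P w) := by
  rintro (_ | p) (_ | q) hne h
  · exact hne rfl
  · exact Rat.AbsoluteValue.not_real_isEquiv_padic _ h
  · exact Rat.AbsoluteValue.not_real_isEquiv_padic _ h.symm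
  · have h1 := h.lt_one_iff.1 (av_lt p.1)
    have h2 : q.1.1 ≠ p.1.1 := fun h3 => hne (by rw [Subtype.ext (Subtype.ext h3 : q.1 = p.1)])
    simp [av, padicNorm.padicNorm_of_prime_of_ne h2] at h1

theorem dense_RP (P : Finset Nat.Primes) : DenseRange (algebraMap ℚ (RP P)) := by
  refine Metric.denseRange_iff.2 fun x ε hε => ?_
  have hε2 : 0 < ε / 2 := half_pos hε
  obtain ⟨a, ha⟩ := Metric.denseRange_iff.1 (Rat.denseRange_cast (𝕜 := ℝ)) x.1 _ hε2
  choose c hc using fun p : P =>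
    Metric.denseRange_iff.1 (Padic.denseRange_ratCast p.1.1) (x.2 p) _ hε2
  obtain ⟨f, hf⟩ := Metric.denseRange_iff.1
    (AbsoluteValue.denseRange_algebraMap_pi (av_nontrivial P) (av_pair P))
    (fun v => WithAbs.toAbs _ (Option.elim v a c)) _ hε2
  rw [dist_pi_lt_iff hε2] at hf
  have hf' : ∀ v, av P v (Option.elim v a c - f) < ε / 2 := fun v => by
    have h1 := hf v
    rw [dist_eq_norm] at h1
    exact h1
  refine ⟨f, ?_⟩
  rw [Prod.dist_eq, max_lt_iff, dist_pi_lt_iff hε]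
  refine ⟨?_, fun p => ?_⟩
  · have h1 : dist (a : ℝ) (f : ℝ) < ε / 2 := by
      simpa [av, Real.dist_eq] using hf' none
    have h2 := dist_triangle x.1 a f
    change dist x.1 (f : ℝ) < ε
    linarith
  · have h1 : dist (c p : ℚ_[p.1.1]) (f : ℚ_[p.1.1]) < ε / 2 := by
      rw [dist_eq_norm, ← Rat.cast_sub, Padic.eq_padicNorm]
      exact hf' (some p)
    have h2 := dist_triangle (x.2 p) (c p) f
    change dist (x.2 p) (f : ℚ_[p.1.1]) < ε
    linarith [hc p]

theorem dense_al {A : Type} [CommRing A] [Algebra ℚ A] [TopologicalSpace A]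
    (h : DenseRange (algebraMap ℚ A)) (σ : Type) : DenseRange (al A : (σ → ℚ) → σ → A) :=
  DenseRange.piMap fun _ => h

theorem neBot_al {A : Type} [CommRing A] [Algebra ℚ A] [TopologicalSpace A]
    (h : DenseRange (algebraMap ℚ A)) {σ : Type} (t : σ → A) : (comap (al A) (𝓝 t)).NeBot :=
  comap_neBot fun _ hU => (dense_al h σ).mem_nhds hU

/-- The nonzero rational numbers which are small at all the places. -/
noncomputable def Fz (P : Finset Nat.Primes) : Filter ℚ :=
  comap (algebraMap ℚ (RP P)) (𝓝 0) ⊓ 𝓟 {a | a ≠ 0}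

theorem Fz_neBot (P : Finset Nat.Primes) : (Fz P).NeBot := by
  refine inf_principal_neBot_iff.2 fun U hU => ?_
  obtain ⟨W, hW, hWU⟩ := mem_comap.1 hU
  have h1 : Tendsto (fun a : ℝ => ((a, 0) : RP P)) (𝓝[≠] 0) (𝓝 0) :=
    ((continuous_id.prodMk continuous_const).tendsto' 0 0 rfl).mono_left nhdsWithin_le_nhds
  obtain ⟨a, ha1, ha2⟩ :=
    ((h1.eventually (eventually_mem_nhds_iff.2 hW)).and self_mem_nhdsWithin).exists
  have h2 : {x : RP P | x ≠ 0} ∈ 𝓝 ((a, 0) : RP P) :=
    isOpen_ne.mem_nhds fun h => ha2 (congrArg Prod.fst h)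
  obtain ⟨s, hs1, hs2⟩ := (dense_RP P).mem_nhds (inter_mem ha1 h2)
  exact ⟨s, hWU hs1, fun h => hs2 (by rw [h, map_zero])⟩

theorem Fz_real (P : Finset Nat.Primes) : Tendsto (algebraMap ℚ ℝ) (Fz P) (𝓝[≠] 0) := by
  refine tendsto_nhdsWithin_iff.2 ⟨?_, ?_⟩
  · exact ((continuous_fst.tendsto' (0 : RP P) 0 rfl).comp tendsto_comap).mono_left inf_le_left
  · filter_upwards [mem_inf_of_right (mem_principal_self _)] with a ha
    simpa using ha

theorem Fz_smul (P : Finset Nat.Primes) {σ : Type} (s : σ → ℚ) :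
    Tendsto (fun a : ℚ => a • s) (Fz P) (comap (al (RP P)) (𝓝 0)) := by
  refine tendsto_comap_iff.2 (tendsto_pi_nhds.2 fun i => ?_)
  have h1 : Tendsto (algebraMap ℚ (RP P)) (Fz P) (𝓝 0) := tendsto_comap.mono_left inf_le_left
  simpa [al, Function.comp_def] using h1.mul_const (algebraMap ℚ (RP P) (s i))

end Vale.Agent.P011N.G2a
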