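import Vale.Agent.P011N.G2a.Mat

/-!
The equations of the group and their linearisation over a normed field.
-/

open Topology Filter Module
open scoped Matrix.Norms.Operator

namespace Vale.Agent.P011N.G2a

variable {V : Type} [AddCommGroup V] [Module ℚ V] {d : ℕ} (b : Basis (Fin d) ℚ V)

/-- The index set of the equations. -/
abbrev JI (T : Forms V) (d : ℕ) : Type := Σ i : T.I, Fin (T.deg i) → Fin d

noncomputable instance finJI (T : Forms V) (d : ℕ) : Fintype (JI T d) :=
  haveI := T.fin
  Fintype.ofFinite _

/-- The linearised equations. -/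
noncomputable def lin (T : Forms V) : Module.End ℚ V →ₗ[ℚ] JI T d → ℚ where
  toFun Y := fun a => ∑ j, T.τ a.1 (Function.update (fun j => b (a.2 j)) j (Y (b (a.2 j))))
  map_add' X Y := by
    funext a
    simp only [LinearMap.add_apply, MultilinearMap.map_update_add, Finset.sum_add_distrib,
      Pi.add_apply]
  map_smul' c X := by
    funext a
    simp only [LinearMap.smul_apply, MultilinearMap.map_update_smul, Pi.smul_apply,
      RingHom.id_apply, Finset.smul_sum]

theorem lin_eq_zero (T : Forms V) (Y : Module.End ℚ V) : lin b T Y = 0 ↔ Y ∈ T.lie := by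
  refine ⟨fun h i x => ?_, fun h => funext fun a => h a.1 fun j => b (a.2 j)⟩
  have h1 : ∀ (x : Fin (T.deg i) → V), (∑ j, (T.τ i).compLinearMap
      (Function.update (fun _ => LinearMap.id) j Y)) x =
      ∑ j, T.τ i (Function.update x j (Y (x j))) := fun x => by
    rw [sum_apply]
    refine Finset.sum_congr rfl fun j _ => ?_
    rw [MultilinearMap.compLinearMap_apply]
    congr 1
    funext k
    by_cases hk : k = j
    · subst hk
      simp
    · simp [Function.update_of_ne hk]
  have h2 : (∑ j, (T.τ i).compLinearMap (Function.update (fun _ => LinearMap.id) j Y)) = 0 := by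
    refine Basis.ext_multilinear (fun _ => b) fun v => ?_
    rw [h1]
    exact congrFun h ⟨i, v⟩
  rw [← h1, h2, zero_apply]

variable (K : Type) [NontriviallyNormedField K] [Algebra ℚ K]

theorem exists_form {n : ℕ} (τ : MultilinearMap ℚ (fun _ : Fin n => V) ℚ) :
    ∃ τ' : ContinuousMultilinearMap K (fun _ : Fin n => Fin d → K) K,
      ∀ v : Fin n → V, τ' (fun j => al K (b.repr (v j))) = algebraMap ℚ K (τ v) := by
  refine ⟨∑ y : Fin n → Fin d, algebraMap ℚ K (τ fun j => b (y j)) •
    (ContinuousMultilinearMap.mkPiAlgebra K (Fin n) K).compContinuousLinearMap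
      fun j => ContinuousLinearMap.proj (y j), fun v => ?_⟩
  have h1 : τ v = τ fun j => ∑ k, b.repr (v j) k • b k := by simp
  rw [h1, MultilinearMap.map_sum]
  simp [MultilinearMap.map_smul_univ, al, mul_comm, -eq_ratCast]

theorem exists_eqs [CompleteSpace K] (T : Forms V) :
    ∃ (q : Matrix (Fin d) (Fin d) K → JI T d → K)
      (Q : Matrix (Fin d) (Fin d) K →L[K] JI T d → K),
      Continuous q ∧ HasStrictFDerivAt q Q 1 ∧ (∀ Y, Q (io b K Y) = al K (lin b T Y)) ∧
      ∀ u ∈ T.grp, q (io b K (u : Module.End ℚ V)) = q 1 := by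
  choose τ hτ using fun i => exists_form b K (T.τ i)
  let col : ∀ a : JI T d, Matrix (Fin d) (Fin d) K →L[K] Fin (T.deg a.1) → Fin d → K := fun a =>
    LinearMap.toContinuousLinearMap
      { toFun := fun M j l => M l (a.2 j)
        map_add' := fun _ _ => rfl
        map_smul' := fun _ _ => rfl }
  have hcol : ∀ a Y, col a (io b K Y) = fun j => al K (b.repr (Y (b (a.2 j)))) := fun a Y => by
    funext j l
    exact io_apply b K Y l (a.2 j)
  have hone : ∀ a, col a 1 = fun j => al K (b.repr (b (a.2 j))) := fun a => by
    rw [← map_one (io b K), hcol]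
    rfl
  refine ⟨fun M a => τ a.1 (col a M),
    ContinuousLinearMap.pi fun a => ((τ a.1).linearDeriv (col a 1)).comp (col a),
    continuous_pi fun a => (τ a.1).cont.comp (col a).continuous,
    hasStrictFDerivAt_pi.2 fun a => ((τ a.1).hasStrictFDerivAt _).comp _ (col a).hasStrictFDerivAt,
    fun Y => funext fun a => ?_, fun u hu => funext fun a => ?_⟩
  · simp only [ContinuousLinearMap.pi_apply, ContinuousLinearMap.comp_apply,
      ContinuousMultilinearMap.linearDeriv_apply, hcol, hone, al, lin, LinearMap.coe_mk,
      AddHom.coe_mk, map_sum, ← hτ]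
    refine Finset.sum_congr rfl fun j _ => ?_
    congr 1
    funext k
    by_cases hk : k = j
    · subst hk
      simp
    · simp [Function.update_of_ne hk]
  · simp only [hcol, hone, hτ]
    exact congrArg _ (hu a.1 fun j => b (a.2 j))

end Vale.Agent.P011N.G2a
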