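import Vale.Agent.P011N.G2a.Loc

/-!
From the places to the ambient group.
-/

open Topology Filter Module

namespace Vale.Agent.P011N.G2a

variable {V : Type} [AddCommGroup V] [Module ℚ V] {d : ℕ} (b : Basis (Fin d) ℚ V)
  (P : Finset Nat.Primes) {σ : Type}

theorem al_fst (t : σ → RP P) :
    comap (al (RP P)) (𝓝 t) ≤ comap (al ℝ) (𝓝 fun i => (t i).1) := by
  have h1 : Continuous fun (t : σ → RP P) i => (t i).1 := by fun_prop
  exact map_le_iff_le_comap.1 ((h1.tendsto t).comp (tendsto_comap (f := al (RP P))))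

theorem al_snd (t : σ → RP P) (p : P) :
    comap (al (RP P)) (𝓝 t) ≤ comap (al ℚ_[p.1.1]) (𝓝 fun i => (t i).2 p) := by
  have h1 : Continuous fun (t : σ → RP P) i => (t i).2 p := by fun_prop
  exact map_le_iff_le_comap.1 ((h1.tendsto t).comp (tendsto_comap (f := al (RP P))))

theorem one_fst : (1 : Amb d P).1.map (fun x => x.1) = 1 :=
  Matrix.map_one _ rfl rfl

theorem one_snd (p : P) : (1 : Amb d P).1.map (fun x => x.2 p) = 1 :=
  Matrix.map_one _ rfl rfl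

variable [Fintype σ]

theorem Sm.tendsto_one {u : (σ → ℚ) → V ≃ₗ[ℚ] V} (h0 : u 0 = 1)
    {D : (σ → ℚ) → Module.End ℚ V} (h : Sm (fun s => (u s : Module.End ℚ V)) D) :
    Tendsto (fun s => emb b P (u s)) (comap (al (RP P)) (𝓝 0)) (𝓝 1) := by
  have h1 : (u 0 : Module.End ℚ V) = 1 := by
    rw [h0]
    rfl
  refine tendsto_emb b P ?_ fun p => ?_
  · have h2 := (h.tendsto_zero b ℝ).mono_left (al_fst P 0)
    rwa [h1, map_one, ← one_fst P] at h2
  · have h2 := (h.tendsto_zero b ℚ_[p.1.1]).mono_left (al_snd P 0 p)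
    rwa [h1, map_one, ← one_snd P p] at h2

theorem glob {T : Forms V} {u : (σ → ℚ) → V ≃ₗ[ℚ] V} (hu : ∀ s, u s ∈ T.grp) (h0 : u 0 = 1)
    {D : (σ → ℚ) →ₗ[ℚ] Module.End ℚ V} (h : Sm (fun s => (u s : Module.End ℚ V)) D)
    (hD : ∀ Y ∈ T.lie, ∃ s, D s = Y) {N : Subgroup (V ≃ₗ[ℚ] V)}
    (hN : ∀ᶠ s in comap (al (RP P)) (𝓝 (0 : σ → RP P)), u s ∈ N) :
    ∀ᶠ h in 𝓝 (1 : Amb d P), h ∈ Clo b P T.grp → h ∈ Clo b P N := by
  obtain ⟨W, hW, hWN⟩ := mem_comap.1 hN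
  obtain ⟨ε, hε, hεW⟩ := Metric.mem_nhds_iff.1 hW
  have c1 : Continuous fun h : Amb d P => h.1.map fun x => x.1 :=
    Units.continuous_val.matrix_map continuous_fst
  have c2 : ∀ p : P, Continuous fun h : Amb d P => h.1.map fun x => x.2 p := fun p =>
    Units.continuous_val.matrix_map (by fun_prop)
  have e1 := (c1.tendsto' 1 1 (one_fst P)).eventually
    (loc b ℝ Rat.denseRange_cast hu h0 h hD (Metric.ball_mem_nhds 0 hε))
  have e2 := fun p : P => ((c2 p).tendsto' 1 1 (one_snd P p)).eventually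
    (loc b ℚ_[p.1.1] (Padic.denseRange_ratCast p.1.1) hu h0 h hD (Metric.ball_mem_nhds 0 hε))
  filter_upwards [e1, eventually_all.2 e2] with g hg1 hg2 hg
  have hg' : g ∈ closure (emb b P '' T.grp) := hg
  obtain ⟨t₁, ht₁, hT₁⟩ := hg1 (map_mem_closure (x := g) c1 hg' (by
    rintro _ ⟨x, hx, rfl⟩
    exact ⟨x, hx, rfl⟩))
  choose t₂ ht₂ hT₂ using fun p : P => hg2 p (map_mem_closure (x := g) (c2 p) hg' (by
    rintro _ ⟨x, hx, rfl⟩
    exact ⟨x, hx, rfl⟩))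
  let t : σ → RP P := fun i => (t₁ i, fun p => t₂ p i)
  have ht : t ∈ Metric.ball (0 : σ → RP P) ε := by
    simp only [mem_ball_zero_iff, pi_norm_lt_iff hε] at ht₁ ht₂ ⊢
    intro i
    rw [Prod.norm_def, max_lt_iff, pi_norm_lt_iff hε]
    exact ⟨ht₁ i, fun p => ht₂ p i⟩
  have := neBot_al (dense_RP P) t
  have hT : Tendsto (fun s => emb b P (u s)) (comap (al (RP P)) (𝓝 t)) (𝓝 g) :=
    tendsto_emb b P (hT₁.mono_left (al_fst P t)) fun p => (hT₂ p).mono_left (al_snd P t p)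
  refine mem_closure_of_tendsto hT ?_
  filter_upwards [tendsto_comap.eventually (Metric.isOpen_ball.mem_nhds ht)] with s hs
  exact ⟨u s, hWN (hεW hs), rfl⟩

end Vale.Agent.P011N.G2a
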