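import Vale.Agent.P011N.G2a.Eqs

/-!
The local statements at one place.
-/

open Topology Filter Module
open scoped Matrix.Norms.Operator

namespace Vale.Agent.P011N.G2a

variable {V : Type} [AddCommGroup V] [Module ℚ V] {d : ℕ} (b : Basis (Fin d) ℚ V)
  (K : Type) [NontriviallyNormedField K] [Algebra ℚ K] [CompleteSpace K] {σ : Type} [Fintype σ]

omit [Fintype σ] in
theorem Sm.lift {f D : (σ → ℚ) → Module.End ℚ V} (h : Sm f D) :
    ∃ (Φ : (σ → K) → Matrix (Fin d) (Fin d) K) (D' : (σ → K) →L[K] Matrix (Fin d) (Fin d) K),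
      Lift (io b K) f D Φ D' :=
  @h K _ _ _ _ _ (FiniteDimensional.complete K _) _ _ (io b K)

omit [CompleteSpace K] in
theorem Lift.tendsto {f D : (σ → ℚ) → Module.End ℚ V} {Φ : (σ → K) → Matrix (Fin d) (Fin d) K}
    {D' : (σ → K) →L[K] Matrix (Fin d) (Fin d) K} (h : Lift (io b K) f D Φ D') :
    ∀ᶠ t in 𝓝 (0 : σ → K),
      Tendsto (fun s => io b K (f s)) (comap (al K) (𝓝 t)) (𝓝 (Φ t)) := by
  filter_upwards [ev_cont h.der, h.val.eventually_nhds] with t ht1 ht2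
  refine (ht1.tendsto.comp tendsto_comap).congr' ?_
  filter_upwards [tendsto_comap.eventually ht2] with s hs
  exact hs s rfl

theorem Sm.tendsto_zero {f D : (σ → ℚ) → Module.End ℚ V} (h : Sm f D) :
    Tendsto (fun s => io b K (f s)) (comap (al K) (𝓝 0)) (𝓝 (io b K (f 0))) := by
  obtain ⟨Φ, D', hL⟩ := h.lift b K
  exact hL.zero ▸ (hL.tendsto b K).self_of_nhds

omit [CompleteSpace K] in
theorem Lift.eqs (hd : DenseRange (algebraMap ℚ K)) {T : Forms V} {u : (σ → ℚ) → V ≃ₗ[ℚ] V}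
    (hu : ∀ s, u s ∈ T.grp) {D : (σ → ℚ) → Module.End ℚ V}
    {Φ : (σ → K) → Matrix (Fin d) (Fin d) K} {D' : (σ → K) →L[K] Matrix (Fin d) (Fin d) K}
    (h : Lift (io b K) (fun s => (u s : Module.End ℚ V)) D Φ D')
    {q : Matrix (Fin d) (Fin d) K → JI T d → K} (hq : Continuous q)
    (hq1 : ∀ u ∈ T.grp, q (io b K (u : Module.End ℚ V)) = q 1) :
    ∀ᶠ t in 𝓝 (0 : σ → K), q (Φ t) = q 1 := by
  filter_upwards [h.tendsto b K] with t ht
  have := neBot_al hd t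
  refine tendsto_nhds_unique ((hq.tendsto _).comp ht) ?_
  exact tendsto_const_nhds.congr fun s => (hq1 _ (hu s)).symm

include b in
theorem Sm.mem_lie {T : Forms V} {u : (σ → ℚ) → V ≃ₗ[ℚ] V} (hu : ∀ s, u s ∈ T.grp) (h0 : u 0 = 1)
    {D : (σ → ℚ) → Module.End ℚ V} (h : Sm (fun s => (u s : Module.End ℚ V)) D) (s : σ → ℚ) :
    D s ∈ T.lie := by
  obtain ⟨Φ, D', hL⟩ := h.lift b ℝ
  obtain ⟨q, Q, hq1, hq2, hq3, hq4⟩ := exists_eqs b ℝ T
  have h1 : Φ 0 = 1 := by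
    rw [hL.zero, h0]
    exact map_one _
  have h2 := hL.eqs b ℝ Rat.denseRange_cast hu hq1 hq4
  rw [← h1] at hq2 h2
  have h3 : Q (D' (al ℝ s)) = 0 := comp_zero hL.der hq2 h2 (al ℝ s)
  have h4 : D' (al ℝ s) = io b ℝ (D s) := hL.lin s
  rw [h4, hq3] at h3
  refine (lin_eq_zero b T _).1 (funext fun a => ?_)
  exact (algebraMap ℚ ℝ).injective ((congrFun h3 a).trans (map_zero _).symm)

theorem loc (hd : DenseRange (algebraMap ℚ K)) {T : Forms V} {u : (σ → ℚ) → V ≃ₗ[ℚ] V}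
    (hu : ∀ s, u s ∈ T.grp) (h0 : u 0 = 1) {D : (σ → ℚ) →ₗ[ℚ] Module.End ℚ V}
    (h : Sm (fun s => (u s : Module.End ℚ V)) D) (hD : ∀ Y ∈ T.lie, ∃ s, D s = Y)
    {W : Set (σ → K)} (hW : W ∈ 𝓝 (0 : σ → K)) :
    ∀ᶠ h in 𝓝 (1 : Matrix (Fin d) (Fin d) K),
      h ∈ closure ((fun g : V ≃ₗ[ℚ] V => io b K (g : Module.End ℚ V)) '' T.grp) →
      ∃ t ∈ W, Tendsto (fun s => io b K (u s : Module.End ℚ V)) (comap (al K) (𝓝 t)) (𝓝 h) := by
  obtain ⟨Φ, D', hL⟩ := h.lift b K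
  obtain ⟨q, Q, hq1, hq2, hq3, hq4⟩ := exists_eqs b K T
  have h1 : Φ 0 = 1 := by
    rw [hL.zero, h0]
    exact map_one _
  have h2 := hL.eqs b K hd hu hq1 hq4
  obtain ⟨S, R, hSR⟩ := exists_homotopy D (lin b T) fun x hx => hD x ((lin_eq_zero b T x).1 hx)
  obtain ⟨S', hS'⟩ := exists_ext b K (alL K σ ∘ₗ S)
  obtain ⟨R', hR'⟩ := exists_ext_pi K ((io b K).toLinearMap ∘ₗ R)
  have hid : D'.toLinearMap ∘ₗ S' + R' ∘ₗ Q.toLinearMap = LinearMap.id := by
    refine io_ext b K fun x => ?_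
    simp only [LinearMap.add_apply, LinearMap.comp_apply, ContinuousLinearMap.coe_coe, hS', hq3,
      hR', alL_apply, AlgHom.toLinearMap_apply, LinearMap.id_apply]
    have h4 : D' (al K (S x)) = io b K (D (S x)) := hL.lin _
    rw [h4, ← map_add, hSR]
  rw [← h1] at hq2 h2
  have h3 := @cover K _ _ _ _ _ _ _ _ _ _ (FiniteDimensional.complete K _) _ _ _ _
    (LinearMap.toContinuousLinearMap S') (LinearMap.toContinuousLinearMap R')
    hL.der hq2 h2 (fun x => LinearMap.congr_fun hid x) _ (inter_mem hW (hL.tendsto b K))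
  rw [h1] at h3
  filter_upwards [h3] with h hh hc
  have h4 : q h = q 1 := by
    refine closure_minimal (t := {h | q h = q 1}) ?_ (isClosed_eq hq1 continuous_const) hc
    rintro _ ⟨g, hg, rfl⟩
    exact hq4 g hg
  obtain ⟨t, ht, rfl⟩ := hh h4
  exact ⟨t, ht.1, ht.2⟩

include b in
theorem Sm.deriv_mem (P : Finset Nat.Primes) {f D : (σ → ℚ) → Module.End ℚ V} (h : Sm f D)
    (W : Submodule ℚ (Module.End ℚ V))
    (hW : ∀ᶠ s in comap (al (RP P)) (𝓝 (0 : σ → RP P)), f s - f 0 ∈ W) (s : σ → ℚ) :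
    D s ∈ W := by
  obtain ⟨Φ, D', hL⟩ := h.lift b ℝ
  refine (Subspace.forall_mem_dualAnnihilator_apply_eq_zero_iff W _).1 fun l hl => ?_
  rw [Submodule.mem_dualAnnihilator] at hl
  obtain ⟨l', hl'⟩ := exists_ext b ℝ (Algebra.linearMap ℚ ℝ ∘ₗ l)
  have h1 : HasDerivAt (fun a : ℝ => a • al ℝ s) (al ℝ s) 0 := by
    simpa using (hasDerivAt_id (0 : ℝ)).smul_const (al ℝ s)
  have h2 : HasFDerivAt Φ D' ((0 : ℝ) • al ℝ s) := by
    rw [zero_smul]
    exact hL.der.hasFDerivAt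
  have h3 := (LinearMap.toContinuousLinearMap l').hasFDerivAt.comp_hasDerivAt (0 : ℝ)
    (h2.comp_hasDerivAt (0 : ℝ) h1)
  have h4 := (hasDerivAt_iff_tendsto_slope.1 h3).comp (Fz_real P)
  have h5 : Tendsto (fun a : ℚ => algebraMap ℚ ℝ a • al ℝ s) (Fz P) (𝓝 0) := by
    have h6 := h1.continuousAt.tendsto.comp ((Fz_real P).mono_right nhdsWithin_le_nhds)
    simpa [Function.comp_def, -eq_ratCast] using h6
  have := Fz_neBot P
  have h7 := tendsto_nhds_unique h4 (tendsto_const_nhds (x := (0 : ℝ)) |>.congr' (by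
    filter_upwards [h5.eventually hL.val, (Fz_smul P s).eventually hW] with a ha1 ha2
    have h8 : Φ (algebraMap ℚ ℝ a • al ℝ s) = io b ℝ (f (a • s)) :=
      ha1 _ (funext fun i => by simp [al])
    have h9 := hl _ ha2
    rw [map_sub, sub_eq_zero] at h9
    have h10 : l' (Φ (algebraMap ℚ ℝ a • al ℝ s)) = l' (Φ ((0 : ℝ) • al ℝ s)) := by
      rw [h8, zero_smul, hL.zero, hl', hl', LinearMap.comp_apply, h9, LinearMap.comp_apply]
    change _ = _ • (l' (Φ (algebraMap ℚ ℝ a • al ℝ s)) - l' (Φ ((0 : ℝ) • al ℝ s)))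
    rw [h10, sub_self, smul_zero]))
  have h8 : l' (io b ℝ (D s)) = 0 := hL.lin s ▸ h7
  rw [hl'] at h8
  simpa using h8

end Vale.Agent.P011N.G2a
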