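import Vale.Agent.P011N.G2a.Dense

/-!
Matrices of rational endomorphisms over the completions.
-/

open Topology Filter Module

namespace Vale.Agent.P011N.G2a

variable {V : Type} [AddCommGroup V] [Module ℚ V] {d : ℕ} (b : Basis (Fin d) ℚ V)

/-- The matrix of an endomorphism over a rational algebra. -/
noncomputable def io (K : Type) [CommRing K] [Algebra ℚ K] :
    Module.End ℚ V →ₐ[ℚ] Matrix (Fin d) (Fin d) K :=
  (AlgHom.mapMatrix (Algebra.ofId ℚ K)).comp (LinearMap.toMatrixAlgEquiv b).toAlgHom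

theorem io_apply (K : Type) [CommRing K] [Algebra ℚ K] (x : Module.End ℚ V) (i j : Fin d) :
    io b K x i j = algebraMap ℚ K (b.repr (x (b j)) i) := by
  simp [io, LinearMap.toMatrixAlgEquiv_apply, -eq_ratCast]

theorem emb_val (P : Finset Nat.Primes) (g : V ≃ₗ[ℚ] V) :
    (emb b P g).1 = io b (RP P) (g : Module.End ℚ V) := rfl

/-- The elementary endomorphisms. -/
noncomputable def el (i j : Fin d) : Module.End ℚ V :=
  (LinearMap.toMatrixAlgEquiv b).symm (Matrix.single i j 1)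

theorem io_el (K : Type) [CommRing K] [Algebra ℚ K] (i j : Fin d) :
    io b K (el b i j) = Matrix.single i j 1 := by
  simp [io, el]

theorem mat_sum (K : Type) [CommRing K] [Algebra ℚ K] (M : Matrix (Fin d) (Fin d) K) :
    M = ∑ i, ∑ j, M i j • io b K (el b i j) := by
  conv_lhs => rw [Matrix.matrix_eq_sum_single M]
  simp [io_el]

theorem end_sum (x : Module.End ℚ V) : x = ∑ i, ∑ j, b.repr (x (b j)) i • el b i j := by
  apply (LinearMap.toMatrixAlgEquiv b).injective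
  conv_lhs => rw [Matrix.matrix_eq_sum_single (LinearMap.toMatrixAlgEquiv b x)]
  simp [el, LinearMap.toMatrixAlgEquiv_apply]

theorem exists_ext (K : Type) [CommRing K] [Algebra ℚ K] {Q : Type} [AddCommGroup Q] [Module ℚ Q]
    [Module K Q] [IsScalarTower ℚ K Q] (g : Module.End ℚ V →ₗ[ℚ] Q) :
    ∃ g' : Matrix (Fin d) (Fin d) K →ₗ[K] Q, ∀ x, g' (io b K x) = g x := by
  refine ⟨∑ i, ∑ j, (Matrix.entryLinearMap K K i j).smulRight (g (el b i j)), fun x => ?_⟩
  conv_rhs => rw [end_sum b x]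
  simp [io_apply, -eq_ratCast]

theorem io_ext (K : Type) [CommRing K] [Algebra ℚ K] {Q : Type} [AddCommGroup Q] [Module K Q]
    {g g' : Matrix (Fin d) (Fin d) K →ₗ[K] Q} (h : ∀ x, g (io b K x) = g' (io b K x)) : g = g' := by
  refine LinearMap.ext fun M => ?_
  rw [mat_sum b K M]
  simp [h]

theorem exists_ext_pi (K : Type) [CommRing K] [Algebra ℚ K] {J Q : Type} [Fintype J]
    [AddCommGroup Q] [Module ℚ Q] [Module K Q] [IsScalarTower ℚ K Q] (g : (J → ℚ) →ₗ[ℚ] Q) :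
    ∃ g' : (J → K) →ₗ[K] Q, ∀ y, g' (al K y) = g y := by
  classical
  refine ⟨∑ j, (LinearMap.proj j : (J → K) →ₗ[K] K).smulRight (g (Pi.single j 1)), fun y => ?_⟩
  conv_rhs => rw [pi_eq_sum_univ' y]
  simp [al, -eq_ratCast]

/-- The image of a rational vector, as a linear map. -/
def alL (K : Type) [CommRing K] [Algebra ℚ K] (σ : Type) : (σ → ℚ) →ₗ[ℚ] σ → K :=
  (Algebra.linearMap ℚ K).compLeft σ

theorem alL_apply (K : Type) [CommRing K] [Algebra ℚ K] {σ : Type} (s : σ → ℚ) :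
    alL K σ s = al K s := rfl

theorem isEmbedding_val (d : ℕ) (P : Finset Nat.Primes) :
    IsEmbedding (Units.val : Amb d P → Matrix (Fin d) (Fin d) (RP P)) := by
  refine Units.isEmbedding_val_mk' (f := fun M => M⁻¹) (fun M hM => ?_) fun u => ?_
  · obtain ⟨u, hu⟩ := (Matrix.isUnit_iff_isUnit_det M).1 hM
    exact (continuousAt_matrix_inv M (hu ▸ NormedRing.inverse_continuousAt u)).continuousWithinAt
  · exact (Matrix.coe_units_inv u).symm

theorem tendsto_emb (P : Finset Nat.Primes) {α : Type} {F : Filter α} {u : α → V ≃ₗ[ℚ] V}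
    {h : Amb d P}
    (h1 : Tendsto (fun s => io b ℝ (u s : Module.End ℚ V)) F (𝓝 (h.1.map fun x => x.1)))
    (h2 : ∀ p : P, Tendsto (fun s => io b ℚ_[p.1.1] (u s : Module.End ℚ V)) F
      (𝓝 (h.1.map fun x => x.2 p))) :
    Tendsto (fun s => emb b P (u s)) F (𝓝 h) := by
  refine (isEmbedding_val d P).tendsto_nhds_iff.2 ?_
  refine tendsto_pi_nhds.2 fun i => tendsto_pi_nhds.2 fun j => ?_
  refine Prod.tendsto_iff _ _ |>.2 ⟨?_, tendsto_pi_nhds.2 fun p => ?_⟩
  · exact tendsto_pi_nhds.1 (tendsto_pi_nhds.1 h1 i) j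
  · exact tendsto_pi_nhds.1 (tendsto_pi_nhds.1 (h2 p) i) j

theorem exists_ginv {A B : Type} [AddCommGroup A] [Module ℚ A] [AddCommGroup B] [Module ℚ B]
    (f : A →ₗ[ℚ] B) : ∃ g : B →ₗ[ℚ] A, ∀ x, f (g (f x)) = f x := by
  obtain ⟨g₀, hg₀⟩ := f.rangeRestrict.exists_rightInverse_of_surjective f.range_rangeRestrict
  obtain ⟨g, hg⟩ := g₀.exists_extend
  refine ⟨g, fun x => ?_⟩
  have h1 : g (f x) = g₀ ⟨f x, x, rfl⟩ := congrArg (fun L => L ⟨f x, x, rfl⟩) hg
  rw [h1]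
  exact congrArg (fun L => (L ⟨f x, x, rfl⟩).1) hg₀

theorem exists_homotopy {A B C : Type} [AddCommGroup A] [Module ℚ A] [AddCommGroup B] [Module ℚ B]
    [AddCommGroup C] [Module ℚ C] (D : A →ₗ[ℚ] B) (Q : B →ₗ[ℚ] C)
    (h : ∀ x, Q x = 0 → ∃ s, D s = x) :
    ∃ (S : B →ₗ[ℚ] A) (R : C →ₗ[ℚ] B), ∀ x, D (S x) + R (Q x) = x := by
  obtain ⟨R, hR⟩ := exists_ginv Q
  obtain ⟨S, hS⟩ := exists_ginv D
  refine ⟨S ∘ₗ (LinearMap.id - R ∘ₗ Q), R, fun x => ?_⟩
  obtain ⟨s, hs⟩ := h (x - R (Q x)) (by rw [map_sub, hR, sub_self])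
  have h1 : D (S (x - R (Q x))) = x - R (Q x) := by rw [← hs, hS]
  simp only [LinearMap.comp_apply, LinearMap.sub_apply, LinearMap.id_apply, h1, sub_add_cancel]

end Vale.Agent.P011N.G2a
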