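import Vale.Agent.P011N.Iface
import Vale.Agent.P011N.G2a.An

/-!
Maps defined on rational parameters which extend to strictly differentiable maps over every
normed field.
-/

open Topology Filter Polynomial

namespace Vale.Agent.P011N.G2a

/-- The image of a rational vector. -/
def al (K : Type) [CommRing K] [Algebra ℚ K] {σ : Type} (s : σ → ℚ) : σ → K :=
  fun i => algebraMap ℚ K (s i)

theorem al_zero (K : Type) [CommRing K] [Algebra ℚ K] {σ : Type} : al K (0 : σ → ℚ) = 0 := by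
  funext i
  simp [al]

variable {E : Type} [Ring E] [Algebra ℚ E] {σ : Type}

/-- `Φ` extends `f`, and its differential extends `D`. -/
structure Lift {K R : Type} [NontriviallyNormedField K] [Algebra ℚ K] [NormedRing R]
    [NormedAlgebra K R] [Algebra ℚ R] (ι : E →ₐ[ℚ] R) (f D : (σ → ℚ) → E) (Φ : (σ → K) → R)
    (D' : (σ → K) →L[K] R) : Prop where
  der : HasStrictFDerivAt Φ D' 0
  lin : ∀ s, D' (al K s) = ι (D s)
  val : ∀ᶠ t in 𝓝 (0 : σ → K), ∀ s, al K s = t → Φ t = ι (f s)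

theorem Lift.zero {K R : Type} [NontriviallyNormedField K] [Algebra ℚ K] [NormedRing R]
    [NormedAlgebra K R] [Algebra ℚ R] {ι : E →ₐ[ℚ] R} {f D : (σ → ℚ) → E} {Φ : (σ → K) → R}
    {D' : (σ → K) →L[K] R} (h : Lift ι f D Φ D') : Φ 0 = ι (f 0) :=
  h.val.self_of_nhds 0 (al_zero K)

/-- `f` extends to a strictly differentiable map over every normed field. -/
def Sm (f D : (σ → ℚ) → E) : Prop :=
  ∀ (K R : Type) [NontriviallyNormedField K] [Algebra ℚ K] [NormedRing R] [NormedAlgebra K R]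
    [CompleteSpace R] [Algebra ℚ R] [IsScalarTower ℚ K R] (ι : E →ₐ[ℚ] R),
    ∃ (Φ : (σ → K) → R) (D' : (σ → K) →L[K] R), Lift ι f D Φ D'

theorem Sm.const (a : E) : Sm (fun _ : σ → ℚ => a) (fun _ => 0) := fun _ _ _ _ _ _ _ _ _ ι =>
  ⟨fun _ => ι a, 0, hasStrictFDerivAt_const _ _, fun s => by simp,
    Eventually.of_forall fun _ _ _ => rfl⟩

theorem Sm.mul [Fintype σ] {f D g D₁ : (σ → ℚ) → E} (hf : Sm f D) (hg : Sm g D₁) :
    Sm (fun s => f s * g s) (fun s => f 0 * D₁ s + D s * g 0) := by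
  intro K R _ _ _ _ _ _ _ ι
  obtain ⟨Φ, D', h1⟩ := hf K R ι
  obtain ⟨Ψ, D'', h2⟩ := hg K R ι
  refine ⟨Φ * Ψ, _, h1.der.mul' h2.der, fun s => ?_, ?_⟩
  · simp [h1.lin, h2.lin, h1.zero, h2.zero]
  · filter_upwards [h1.val, h2.val] with t ht1 ht2 s hs
    simp [ht1 s hs, ht2 s hs]

theorem Sm.inv [Fintype σ] {f g D : (σ → ℚ) → E} (hf : Sm f D) (h0 : f 0 = 1)
    (h1 : ∀ s, f s * g s = 1) (h2 : ∀ s, g s * f s = 1) : Sm g (fun s => - D s) := by
  intro K R _ _ _ _ _ _ _ ι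
  obtain ⟨Φ, D', h⟩ := hf K R ι
  have h3 : Φ 0 = ((1 : Rˣ) : R) := by simp [h.zero, h0]
  have h4 := hasStrictFDerivAt_ringInverse (𝕜 := K) (1 : Rˣ)
  rw [show ((1 : Rˣ) : R) = Φ 0 from h3.symm] at h4
  refine ⟨fun t => Ring.inverse (Φ t), _, h4.comp (0 : σ → K) h.der, fun s => ?_, ?_⟩
  · simp [h.lin]
  · filter_upwards [h.val] with t ht s hs
    rw [ht s hs]
    exact Ring.inverse_unit ⟨ι (f s), ι (g s), by rw [← map_mul, h1, map_one],
      by rw [← map_mul, h2, map_one]⟩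

theorem Sm.congr {f D D₁ : (σ → ℚ) → E} (hf : Sm f D) (h : ∀ s, D s = D₁ s) : Sm f D₁ :=
  (funext h : D = D₁) ▸ hf

theorem ev_ne {K : Type} [NontriviallyNormedField K] [Algebra ℚ K] {b : ℚ[X]}
    (hb : b.eval 0 ≠ 0) : ∀ᶠ t in 𝓝 (0 : K), aeval t b ≠ 0 := by
  refine (b.continuous_aeval.continuousAt (x := (0 : K))).eventually_ne ?_
  rw [← (algebraMap ℚ K).map_zero, aeval_algebraMap_apply_eq_algebraMap_eval]
  exact fun h => hb ((algebraMap ℚ K).injective h)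

theorem Sm.curve [Fintype σ] (i : σ) {X : E} {g f : ℚ → E} {B : ℚ[X]} (hg : IsRat g)
    (hB : B.eval 0 ≠ 0) (hf : ∀ t, B.eval t ≠ 0 → f t = 1 + t • X + t ^ 2 • g t) :
    Sm (fun s : σ → ℚ => f (s i)) (fun s => s i • X) := by
  intro K R _ _ _ _ _ _ _ ι
  obtain ⟨b, n, c, hb, hg⟩ := hg
  have hb0 : aeval (0 : K) b ≠ 0 := (ev_ne hb).self_of_nhds
  have h1 := (hasStrictDerivAt_inv hb0).comp (0 : K) (b.hasStrictDerivAt_aeval (0 : K))
  have h2 : HasStrictDerivAt (fun t : K => ∑ j : Fin n, t ^ (j : ℕ) • ι (c j)) _ 0 :=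
    HasStrictDerivAt.fun_sum fun j _ => (hasStrictDerivAt_pow (j : ℕ) (0 : K)).smul_const (ι (c j))
  have h3 := ((hasStrictDerivAt_id (0 : K)).smul ((((hasStrictDerivAt_id (0 : K)).mul h1).smul
    h2).const_add (ι X))).const_add 1
  have h4 : HasStrictDerivAt (fun t : K => 1 + t • (ι X + (t * (aeval t b)⁻¹) •
      ∑ j : Fin n, t ^ (j : ℕ) • ι (c j))) (ι X) 0 := by
    refine HasStrictDerivAt.congr_deriv h3 ?_
    simp [Pi.smul_apply']
  have h5 : HasStrictFDerivAt (fun t : σ → K => t i)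
      (ContinuousLinearMap.proj i : (σ → K) →L[K] K) 0 :=
    (ContinuousLinearMap.proj i : (σ → K) →L[K] K).hasStrictFDerivAt
  refine ⟨_, _, h4.hasStrictFDerivAt.comp (0 : σ → K) h5, fun s => ?_, ?_⟩
  · simp [al, -eq_ratCast]
  · have h6 : Tendsto (fun t : σ → K => t i) (𝓝 0) (𝓝 0) := h5.continuousAt.tendsto
    filter_upwards [h6.eventually (ev_ne hb), h6.eventually (ev_ne hB)] with t ht1 ht2 s hs
    subst hs
    simp only [al, aeval_algebraMap_apply_eq_algebraMap_eval, _root_.map_ne_zero] at ht1 ht2 ⊢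
    have h7 : g (s i) = (b.eval (s i))⁻¹ • ∑ j : Fin n, s i ^ (j : ℕ) • c j := by
      rw [← hg _ ht1, smul_smul, inv_mul_cancel₀ ht1, one_smul]
    rw [hf _ ht2, h7]
    simp only [← map_inv₀, ← map_mul, ← map_pow, algebraMap_smul, map_add, map_one, map_smul,
      map_sum, smul_add, smul_smul, add_assoc]
    rw [sq, mul_assoc]

end Vale.Agent.P011N.G2a
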